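import Vale.Agent.H68.P036.Mono

/-!
Heilbronn-type bounds for point sets on short paths and for unions of few monotone sets.
-/

namespace Vale.Agent.H68.P036

open Finset

theorem monoSet_bound (Q : Finset (ℝ × ℝ)) (k : ℕ) (hk : 3 ≤ k) (hcard : Q.card = k)
    (hbox : ∀ q ∈ Q, 0 ≤ q.1 ∧ q.1 ≤ 1 ∧ 0 ≤ q.2 ∧ q.2 ≤ 1) (hQ : MonoSet Q) :
    ∃ a ∈ Q, ∃ b ∈ Q, ∃ c ∈ Q, a ≠ b ∧ b ≠ c ∧ a ≠ c ∧
      triArea a b c ≤ 2 / ((k : ℝ) - 2) ^ 2 := by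
  rcases hQ with h | h
  · refine mono_bound 1 (Or.inl rfl) Q k hk hcard hbox ?_
    intro q hq r hr
    rcases h q hq r hr with ⟨h1, h2⟩ | ⟨h1, h2⟩
    · left; exact ⟨h1, by linarith⟩
    · right; exact ⟨h1, by linarith⟩
  · refine mono_bound (-1) (Or.inr rfl) Q k hk hcard hbox ?_
    intro q hq r hr
    rcases h q hq r hr with ⟨h1, h2⟩ | ⟨h1, h2⟩
    · left; exact ⟨h1, by linarith⟩
    · right; exact ⟨h1, by linarith⟩

theorem final_statement :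
    (∀ (P : Finset (ℝ × ℝ)) (n : ℕ) (p : ℕ → ℝ × ℝ), 3 ≤ n → (∀ i < n, p i ∈ P) →
      (∀ i < n, ∀ j < n, p i = p j → i = j) →
      ∃ a ∈ P, ∃ b ∈ P, ∃ c ∈ P, a ≠ b ∧ b ≠ c ∧ a ≠ c ∧
        triArea a b c
          ≤ (∑ j ∈ range (n - 1), eDist (p j) (p (j + 1))) ^ 2 / (2 * ((n : ℝ) - 2) ^ 2)) ∧
    (∀ (P : Finset (ℝ × ℝ)) (n m : ℕ) (Q : Fin m → Finset (ℝ × ℝ)), P.card = n → 0 < m →
      3 * m ≤ n → (∀ q ∈ P, 0 ≤ q.1 ∧ q.1 ≤ 1 ∧ 0 ≤ q.2 ∧ q.2 ≤ 1) →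
      (∀ t, Q t ⊆ P) → (∀ q ∈ P, ∃ t, q ∈ Q t) → (∀ t, MonoSet (Q t)) →
      ∃ a ∈ P, ∃ b ∈ P, ∃ c ∈ P, a ≠ b ∧ b ≠ c ∧ a ≠ c ∧
        triArea a b c ≤ 2 * (m : ℝ) ^ 2 / ((n : ℝ) - 2 * (m : ℝ)) ^ 2) := by
  constructor
  · intro P n p hn hpP hinj
    obtain ⟨i, hi, hle⟩ := path_bound n hn p
    refine ⟨p i, hpP i (by omega), p (i + 1), hpP (i + 1) (by omega), p (i + 2), hpP (i + 2) hi,
      ?_, ?_, ?_, hle⟩
    · intro h; have := hinj i (by omega) (i + 1) (by omega) h; omega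
    · intro h; have := hinj (i + 1) (by omega) (i + 2) hi h; omega
    · intro h; have := hinj i (by omega) (i + 2) hi h; omega
  · intro P n m Q hcard hm h3 hbox hsub hcov hmono
    classical
    have hmR : (0 : ℝ) < (m : ℝ) := by exact_mod_cast hm
    have h3R : 3 * (m : ℝ) ≤ (n : ℝ) := by exact_mod_cast h3
    -- pigeonhole: some part has at least n / m points
    have hcardle : (n : ℝ) ≤ ∑ t : Fin m, ((Q t).card : ℝ) := by
      have h1 : P ⊆ (univ : Finset (Fin m)).biUnion Q := by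
        intro q hq
        obtain ⟨t, ht⟩ := hcov q hq
        exact mem_biUnion.mpr ⟨t, mem_univ t, ht⟩
      have h2 : P.card ≤ ∑ t : Fin m, (Q t).card :=
        le_trans (card_le_card h1) card_biUnion_le
      rw [hcard] at h2
      exact_mod_cast h2
    have hne : (univ : Finset (Fin m)).Nonempty := ⟨⟨0, hm⟩, mem_univ _⟩
    have hsum : ∑ _t : Fin m, ((n : ℝ) / (m : ℝ)) ≤ ∑ t : Fin m, ((Q t).card : ℝ) := by
      rw [sum_const, card_univ, Fintype.card_fin, nsmul_eq_mul]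
      have : (m : ℝ) * ((n : ℝ) / (m : ℝ)) = (n : ℝ) := by field_simp
      rw [this]; exact hcardle
    obtain ⟨t, _, ht⟩ := exists_le_of_sum_le hne hsum
    have hk3R : (3 : ℝ) ≤ ((Q t).card : ℝ) := by
      have : (3 : ℝ) ≤ (n : ℝ) / (m : ℝ) := by
        rw [le_div_iff₀ hmR]; exact h3R
      linarith
    have hk3 : 3 ≤ (Q t).card := by exact_mod_cast hk3R
    obtain ⟨a, ha, b, hb, c, hc, hab, hbc, hac, hle⟩ :=
      monoSet_bound (Q t) (Q t).card hk3 rfl (fun q hq => hbox q (hsub t hq)) (hmono t)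
    refine ⟨a, hsub t ha, b, hsub t hb, c, hsub t hc, hab, hbc, hac, le_trans hle ?_⟩
    -- 2 / (k - 2)^2 ≤ 2 m^2 / (n - 2 m)^2 since k - 2 ≥ (n - 2 m) / m > 0
    have hd : (0 : ℝ) < (n : ℝ) - 2 * (m : ℝ) := by linarith
    have hk2 : ((n : ℝ) - 2 * (m : ℝ)) / (m : ℝ) ≤ ((Q t).card : ℝ) - 2 := by
      have : ((n : ℝ) - 2 * (m : ℝ)) / (m : ℝ) = (n : ℝ) / (m : ℝ) - 2 := by field_simp
      rw [this]; linarith
    have hpos : (0 : ℝ) < ((n : ℝ) - 2 * (m : ℝ)) / (m : ℝ) := div_pos hd hmR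
    have hsq : (((n : ℝ) - 2 * (m : ℝ)) / (m : ℝ)) ^ 2 ≤ (((Q t).card : ℝ) - 2) ^ 2 :=
      pow_le_pow_left₀ hpos.le hk2 2
    have heq : 2 * (m : ℝ) ^ 2 / ((n : ℝ) - 2 * (m : ℝ)) ^ 2
        = 2 / (((n : ℝ) - 2 * (m : ℝ)) / (m : ℝ)) ^ 2 := by
      field_simp
    rw [heq]
    exact div_le_div_of_nonneg_left (by norm_num) (by positivity) hsq

end Vale.Agent.H68.P036
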