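import Mathlib

/-!
Definitions for the Heilbronn-type bounds: triangle area, Euclidean distance in the plane,
monotone finite sets.
-/

namespace Vale.Agent.H68.P036

/-- Area of the triangle with corners a, b, c: half the absolute value of the determinant
of b - a and c - a. -/
noncomputable def triArea (a b c : ℝ × ℝ) : ℝ :=
  (1 / 2) * |(b.1 - a.1) * (c.2 - a.2) - (b.2 - a.2) * (c.1 - a.1)|

/-- Euclidean distance between two points of the plane. -/
noncomputable def eDist (a b : ℝ × ℝ) : ℝ :=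
  Real.sqrt ((b.1 - a.1) ^ 2 + (b.2 - a.2) ^ 2)

/-- A finite set of points of the plane is monotone if its points can be compared pairwise with
both coordinates in the same order (an increasing chain), or pairwise with the two coordinates in
opposite orders (a decreasing chain). -/
def MonoSet (Q : Finset (ℝ × ℝ)) : Prop :=
  (∀ q ∈ Q, ∀ r ∈ Q, (q.1 ≤ r.1 ∧ q.2 ≤ r.2) ∨ (r.1 ≤ q.1 ∧ r.2 ≤ q.2)) ∨
  (∀ q ∈ Q, ∀ r ∈ Q, (q.1 ≤ r.1 ∧ r.2 ≤ q.2) ∨ (r.1 ≤ q.1 ∧ q.2 ≤ r.2))

end Vale.Agent.H68.P036
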