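import Vale.Agent.H68.P036.Path

/-!
Monotone point sets in the unit square: sorted along the chain, the path has length at most 2.
-/

namespace Vale.Agent.H68.P036

open Finset

theorem eDist_le_abs (a b : ℝ × ℝ) : eDist a b ≤ |b.1 - a.1| + |b.2 - a.2| := by
  unfold eDist
  rw [Real.sqrt_le_iff]
  constructor
  · positivity
  · have h1 : (b.1 - a.1) ^ 2 = |b.1 - a.1| ^ 2 := (sq_abs _).symm
    have h2 : (b.2 - a.2) ^ 2 = |b.2 - a.2| ^ 2 := (sq_abs _).symm
    rw [h1, h2]
    nlinarith [abs_nonneg (b.1 - a.1), abs_nonneg (b.2 - a.2)]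

/-- A finite set on which the key is injective can be listed with increasing keys. -/
theorem exists_sorted (P : Finset (ℝ × ℝ)) (n : ℕ) (hcard : P.card = n) (k : ℝ × ℝ → ℝ)
    (hk : Set.InjOn k (P : Set (ℝ × ℝ))) :
    ∃ p : ℕ → ℝ × ℝ, (∀ i < n, p i ∈ P) ∧ (∀ i j, i < j → j < n → k (p i) < k (p j)) := by
  classical
  have hS : (P.image k).card = n := by rw [card_image_of_injOn hk, hcard]
  have hmem : ∀ i : Fin n, ∃ q ∈ P, k q = (P.image k).orderEmbOfFin hS i := by
    intro i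
    have := (P.image k).orderEmbOfFin_mem hS i
    rw [mem_image] at this
    exact this
  choose f hfP hfk using hmem
  refine ⟨fun i => if h : i < n then f ⟨i, h⟩ else (0, 0), ?_, ?_⟩
  · intro i hi
    simp only [hi, dif_pos]
    exact hfP _
  · intro i j hij hj
    have hi : i < n := lt_trans hij hj
    simp only [hi, hj, dif_pos]
    rw [hfk, hfk]
    exact ((P.image k).orderEmbOfFin hS).strictMono (by simpa using hij)

/-- Monotone sets (increasing for sg = 1, decreasing for sg = -1) in the unit square. -/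
theorem mono_bound (sg : ℝ) (hsg : sg = 1 ∨ sg = -1) (P : Finset (ℝ × ℝ)) (n : ℕ) (hn : 3 ≤ n)
    (hcard : P.card = n)
    (hbox : ∀ q ∈ P, 0 ≤ q.1 ∧ q.1 ≤ 1 ∧ 0 ≤ q.2 ∧ q.2 ≤ 1)
    (hchain : ∀ q ∈ P, ∀ r ∈ P, (q.1 ≤ r.1 ∧ sg * q.2 ≤ sg * r.2) ∨
      (r.1 ≤ q.1 ∧ sg * r.2 ≤ sg * q.2)) :
    ∃ a ∈ P, ∃ b ∈ P, ∃ c ∈ P, a ≠ b ∧ b ≠ c ∧ a ≠ c ∧
      triArea a b c ≤ 2 / ((n : ℝ) - 2) ^ 2 := by
  have hsg2 : sg * sg = 1 := by rcases hsg with h | h <;> rw [h] <;> norm_num
  set k : ℝ × ℝ → ℝ := fun q => q.1 + sg * q.2 with hkdef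
  have hk : Set.InjOn k (P : Set (ℝ × ℝ)) := by
    intro q hq r hr hqr
    have hq' : q ∈ P := hq
    have hr' : r ∈ P := hr
    have hqr' : q.1 + sg * q.2 = r.1 + sg * r.2 := hqr
    have h1 : q.1 = r.1 ∧ sg * q.2 = sg * r.2 := by
      rcases hchain q hq' r hr' with ⟨h1, h2⟩ | ⟨h1, h2⟩
      · constructor <;> linarith
      · constructor <;> linarith
    have h2 : q.2 = r.2 := by
      have : sg * (sg * q.2) = sg * (sg * r.2) := by rw [h1.2]
      rw [← mul_assoc, ← mul_assoc, hsg2, one_mul, one_mul] at this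
      exact this
    exact Prod.ext h1.1 h2
  obtain ⟨p, hpP, hpk⟩ := exists_sorted P n hcard k hk
  -- monotonicity of both coordinates along the list
  have hmono : ∀ i j, i < j → j < n → (p i).1 ≤ (p j).1 ∧ sg * (p i).2 ≤ sg * (p j).2 := by
    intro i j hij hj
    have hi : i < n := lt_trans hij hj
    have hlt : (p i).1 + sg * (p i).2 < (p j).1 + sg * (p j).2 := hpk i j hij hj
    rcases hchain (p i) (hpP i hi) (p j) (hpP j hj) with h | ⟨h1, h2⟩
    · exact h
    · exfalso; linarith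
  have hinj : ∀ i j, i < j → j < n → p i ≠ p j := by
    intro i j hij hj heq
    have := hpk i j hij hj
    rw [heq] at this
    exact lt_irrefl _ this
  obtain ⟨i, hi, hle⟩ := path_bound n hn p
  -- the path length is at most 2
  have hlen : ∑ j ∈ range (n - 1), eDist (p j) (p (j + 1)) ≤ 2 := by
    have hstep : ∀ j ∈ range (n - 1), eDist (p j) (p (j + 1))
        ≤ k (p (j + 1)) - k (p j) := by
      intro j hj
      rw [mem_range] at hj
      have hm := hmono j (j + 1) (Nat.lt_succ_self j) (by omega)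
      have h1 := eDist_le_abs (p j) (p (j + 1))
      have h2 : |(p (j + 1)).1 - (p j).1| = (p (j + 1)).1 - (p j).1 :=
        abs_of_nonneg (by linarith [hm.1])
      have h3 : |(p (j + 1)).2 - (p j).2| = sg * (p (j + 1)).2 - sg * (p j).2 := by
        rcases hsg with h | h
        · rw [h, one_mul, one_mul]
          have := hm.2
          rw [h, one_mul, one_mul] at this
          exact abs_of_nonneg (by linarith)
        · rw [h]
          have := hm.2
          rw [h] at this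
          rw [abs_of_nonpos (by linarith)]
          ring
      show eDist (p j) (p (j + 1)) ≤ ((p (j + 1)).1 + sg * (p (j + 1)).2) - ((p j).1 + sg * (p j).2)
      linarith
    have htel : ∑ j ∈ range (n - 1), (k (p (j + 1)) - k (p j)) = k (p (n - 1)) - k (p 0) :=
      Finset.sum_range_sub (fun j => k (p j)) (n - 1)
    have hb0 := hbox (p 0) (hpP 0 (by omega))
    have hb1 := hbox (p (n - 1)) (hpP (n - 1) (by omega))
    have hfin : k (p (n - 1)) - k (p 0) ≤ 2 := by
      show ((p (n - 1)).1 + sg * (p (n - 1)).2) - ((p 0).1 + sg * (p 0).2) ≤ 2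
      rcases hsg with h | h <;> rw [h] <;> linarith [hb0.1, hb0.2.1, hb0.2.2.1, hb0.2.2.2, hb1.1,
        hb1.2.1, hb1.2.2.1, hb1.2.2.2]
    calc ∑ j ∈ range (n - 1), eDist (p j) (p (j + 1))
        ≤ ∑ j ∈ range (n - 1), (k (p (j + 1)) - k (p j)) := sum_le_sum hstep
      _ = k (p (n - 1)) - k (p 0) := htel
      _ ≤ 2 := hfin
  have hlen0 : 0 ≤ ∑ j ∈ range (n - 1), eDist (p j) (p (j + 1)) :=
    sum_nonneg (fun j _ => eDist_nonneg _ _)
  have hn2 : (0 : ℝ) < (n : ℝ) - 2 := by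
    have : (3 : ℝ) ≤ (n : ℝ) := by exact_mod_cast hn
    linarith
  refine ⟨p i, hpP i (by omega), p (i + 1), hpP (i + 1) (by omega), p (i + 2), hpP (i + 2) hi,
    hinj i (i + 1) (by omega) (by omega), hinj (i + 1) (i + 2) (by omega) hi,
    hinj i (i + 2) (by omega) hi, ?_⟩
  refine le_trans hle ?_
  have h4 : (∑ j ∈ range (n - 1), eDist (p j) (p (j + 1))) ^ 2 ≤ 4 := by nlinarith
  have hpos : (0 : ℝ) < 2 * ((n : ℝ) - 2) ^ 2 := by positivity
  rw [div_le_div_iff₀ hpos (by positivity)]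
  nlinarith [sq_nonneg ((n : ℝ) - 2)]

end Vale.Agent.H68.P036
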