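import Vale.Agent.H68.P036.Defs

/-!
Heilbronn-type bound along a path: for points listed in any order, some three
consecutive points span a triangle of area at most (path length)^2 / (2 (n-2)^2).
-/

namespace Vale.Agent.H68.P036

open Finset

theorem eDist_nonneg (a b : ℝ × ℝ) : 0 ≤ eDist a b := Real.sqrt_nonneg _

theorem triArea_le (a b c : ℝ × ℝ) : triArea a b c ≤ (1 / 2) * (eDist a b * eDist b c) := by
  unfold triArea eDist
  have h1 : (b.1 - a.1) * (c.2 - a.2) - (b.2 - a.2) * (c.1 - a.1)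
      = (b.1 - a.1) * (c.2 - b.2) - (b.2 - a.2) * (c.1 - b.1) := by ring
  rw [h1]
  have hA : 0 ≤ (b.1 - a.1) ^ 2 + (b.2 - a.2) ^ 2 := by positivity
  rw [← Real.sqrt_mul hA]
  have h2 : |(b.1 - a.1) * (c.2 - b.2) - (b.2 - a.2) * (c.1 - b.1)|
      ≤ Real.sqrt (((b.1 - a.1) ^ 2 + (b.2 - a.2) ^ 2) * ((c.1 - b.1) ^ 2 + (c.2 - b.2) ^ 2)) := by
    apply Real.abs_le_sqrt
    nlinarith [sq_nonneg ((b.1 - a.1) * (c.1 - b.1) + (b.2 - a.2) * (c.2 - b.2))]
  linarith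

/-- Along any list of points, some three consecutive points span a small triangle. -/
theorem path_bound (n : ℕ) (hn : 3 ≤ n) (p : ℕ → ℝ × ℝ) :
    ∃ i, i + 2 < n ∧ triArea (p i) (p (i + 1)) (p (i + 2))
      ≤ (∑ j ∈ range (n - 1), eDist (p j) (p (j + 1))) ^ 2 / (2 * ((n : ℝ) - 2) ^ 2) := by
  set a : ℕ → ℝ := fun j => eDist (p j) (p (j + 1)) with ha
  set ℓ : ℝ := ∑ j ∈ range (n - 1), a j with hℓ
  have ha0 : ∀ j, 0 ≤ a j := fun j => eDist_nonneg _ _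
  have hn2 : (0 : ℝ) < (n : ℝ) - 2 := by
    have : (3 : ℝ) ≤ (n : ℝ) := by exact_mod_cast hn
    linarith
  have hne : (range (n - 2)).Nonempty := by
    rw [nonempty_range_iff]; omega
  -- the two shifted sums are at most the full sum
  have hs1 : ∑ i ∈ range (n - 2), a i ≤ ℓ := by
    apply sum_le_sum_of_subset_of_nonneg
    · intro i hi; rw [mem_range] at hi ⊢; omega
    · intro i _ _; exact ha0 i
  have hs2 : ∑ i ∈ range (n - 2), a (i + 1) ≤ ℓ := by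
    have h21 : n - 1 = (n - 2) + 1 := by omega
    rw [hℓ, h21, sum_range_succ']
    linarith [ha0 0]
  have hsum : ∑ i ∈ range (n - 2), (a i + a (i + 1))
      ≤ ∑ _i ∈ range (n - 2), (2 * ℓ / ((n : ℝ) - 2)) := by
    rw [sum_add_distrib, sum_const, card_range, nsmul_eq_mul]
    have hc : ((n - 2 : ℕ) : ℝ) = (n : ℝ) - 2 := by
      rw [Nat.cast_sub (by omega)]; norm_num
    rw [hc]
    have : ((n : ℝ) - 2) * (2 * ℓ / ((n : ℝ) - 2)) = 2 * ℓ := by
      field_simp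
    rw [this]; linarith
  obtain ⟨i, hi, hle⟩ := exists_le_of_sum_le hne hsum
  rw [mem_range] at hi
  refine ⟨i, by omega, ?_⟩
  have h1 := triArea_le (p i) (p (i + 1)) (p (i + 2))
  have h2 : eDist (p i) (p (i + 1)) * eDist (p (i + 1)) (p (i + 2))
      ≤ (a i + a (i + 1)) ^ 2 / 4 := by
    have : eDist (p i) (p (i + 1)) = a i := rfl
    have h' : eDist (p (i + 1)) (p (i + 2)) = a (i + 1) := rfl
    rw [this, h']
    nlinarith [sq_nonneg (a i - a (i + 1))]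
  have h3 : (a i + a (i + 1)) ^ 2 ≤ (2 * ℓ / ((n : ℝ) - 2)) ^ 2 := by
    apply pow_le_pow_left₀ _ hle
    linarith [ha0 i, ha0 (i + 1)]
  have h4 : (2 * ℓ / ((n : ℝ) - 2)) ^ 2 / 8 = ℓ ^ 2 / (2 * ((n : ℝ) - 2) ^ 2) := by
    field_simp; ring
  calc triArea (p i) (p (i + 1)) (p (i + 2))
      ≤ (1 / 2) * (eDist (p i) (p (i + 1)) * eDist (p (i + 1)) (p (i + 2))) := h1
    _ ≤ (1 / 2) * ((a i + a (i + 1)) ^ 2 / 4) := by linarith
    _ ≤ (2 * ℓ / ((n : ℝ) - 2)) ^ 2 / 8 := by linarith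
    _ = ℓ ^ 2 / (2 * ((n : ℝ) - 2) ^ 2) := h4

end Vale.Agent.H68.P036
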